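import Mathlib.Analysis.InnerProductSpace.PiL2
import Mathlib.MeasureTheory.Measure.Hausdorff
import Mathlib.MeasureTheory.Measure.Haar.Disintegration
import Mathlib.Topology.MetricSpace.ThickenedIndicator
import Mathlib.MeasureTheory.Constructions.BorelSpace.Metric
import Mathlib.MeasureTheory.Measure.Haar.InnerProductSpace
import Mathlib.MeasureTheory.Measure.Lebesgue.VolumeOfBalls

/-!
General position by null sets: a generic shift of finitely many Lipschitz functions.
-/

namespace Vale.Agent.P052.H342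

open Set Metric Topology MeasureTheory
open scoped ENNReal NNReal

/-- Abbreviation. -/
abbrev Eu (d : ℕ) : Type := EuclideanSpace ℝ (Fin d)

/-- The tuples of `r` distinct points of `K` which are all at distance `D` from a common point of
`K` outside `S`. -/
def tuples {d : ℕ} (K S : Set (Eu d)) (D : ℝ) (r : ℕ) : Set (Fin r → Eu d) :=
  {y | Function.Injective y ∧ (∀ l, y l ∈ K) ∧ ∃ x ∈ K, x ∉ S ∧ ∀ l, dist x (y l) = D}

theorem null_preimage {k : ℕ} {J : Type} [Fintype J] (L : (Fin k → ℝ) →ₗ[ℝ] (J → ℝ))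
    (hL : Function.Surjective L) {N : Set (J → ℝ)} (hN : volume N = 0) :
    volume (L ⁻¹' N) = 0 := by
  obtain ⟨c, -, hc⟩ := L.exists_map_addHaar_eq_smul_addHaar (volume : Measure (Fin k → ℝ))
    (volume : Measure (J → ℝ)) hL
  have hcont : Continuous L := LinearMap.continuous_of_finiteDimensional L
  have h1 : (volume : Measure (Fin k → ℝ)).map L (toMeasurable volume N) = 0 := by
    rw [hc]
    simp [measure_toMeasurable, hN]
  rw [Measure.map_apply hcont.measurable (measurableSet_toMeasurable _ _)] at h1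
  exact measure_mono_null (preimage_mono (subset_toMeasurable _ _)) h1

theorem null_bad {d k r : ℕ} (Z : Set (Fin r → Eu d)) (hZ : μH[((k - r : ℕ) : ℝ)] Z = 0)
    {C : ℝ≥0} (φ : Fin k → Eu d → ℝ) (hφ : ∀ i, LipschitzWith C (φ i)) (lam : Fin k → Fin r)
    (hlam : Function.Surjective lam) :
    volume {c : Fin k → ℝ | ∃ y ∈ Z, ∀ i i', lam i = lam i' →
      c i - c i' = φ i (y (lam i)) - φ i' (y (lam i))} = 0 := by
  classical
  obtain ⟨σ, hσ⟩ := hlam.hasRightInverse
  have hσinj : Function.Injective σ := hσ.injective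
  let J : Type := {i : Fin k // i ∉ Set.range σ}
  have hcard : Fintype.card J = k - r := by
    have h1 := Fintype.card_subtype_compl (fun i : Fin k => i ∈ Set.range σ)
    have h2 : Fintype.card {i : Fin k // i ∈ Set.range σ} = r := by
      have := Set.card_range_of_injective hσinj
      rw [Fintype.card_fin] at this
      convert this
    rw [h2, Fintype.card_fin] at h1
    convert h1
  let L : (Fin k → ℝ) →ₗ[ℝ] (J → ℝ) :=
    { toFun := fun c j => c j.1 - c (σ (lam j.1))
      map_add' := by
        intro c c'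
        funext j
        simp only [Pi.add_apply]
        ring
      map_smul' := by
        intro t c
        funext j
        simp only [Pi.smul_apply, smul_eq_mul, RingHom.id_apply]
        ring }
  have hL : Function.Surjective L := by
    intro b
    refine ⟨fun i => if h : i ∉ Set.range σ then b ⟨i, h⟩ else 0, ?_⟩
    funext j
    change (if h : j.1 ∉ Set.range σ then b ⟨j.1, h⟩ else 0) -
      (if h : σ (lam j.1) ∉ Set.range σ then b ⟨σ (lam j.1), h⟩ else 0) = b j
    rw [dif_pos j.2, dif_neg (by simp)]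
    simp
  let g : (Fin r → Eu d) → (J → ℝ) := fun y j =>
    φ j.1 (y (lam j.1)) - φ (σ (lam j.1)) (y (lam j.1))
  have hg : LipschitzWith (C + C) g := by
    intro y y'
    rw [edist_pi_le_iff]
    intro j
    have h1 := (((hφ j.1).comp (LipschitzWith.eval (lam j.1))).sub
      ((hφ (σ (lam j.1))).comp (LipschitzWith.eval (lam j.1)))) y y'
    rw [mul_one] at h1
    exact h1
  have hgZ : volume (g '' Z) = 0 := by
    rw [← hausdorffMeasure_pi_real (ι := J), hcard]
    have h1 := hg.hausdorffMeasure_image_le (d := ((k - r : ℕ) : ℝ)) (by positivity) Z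
    rw [hZ, mul_zero] at h1
    exact le_antisymm h1 bot_le
  refine measure_mono_null ?_ (null_preimage L hL hgZ)
  rintro c ⟨y, hy, hc⟩
  refine ⟨y, hy, ?_⟩
  funext j
  change φ j.1 (y (lam j.1)) - φ (σ (lam j.1)) (y (lam j.1)) = c j.1 - c (σ (lam j.1))
  exact (hc j.1 (σ (lam j.1)) (hσ (lam j.1)).symm).symm

theorem exists_generic {d k : ℕ} {K S : Set (Eu d)} {D : ℝ}
    (hZ : ∀ r, 1 ≤ r → r ≤ k → μH[((k - r : ℕ) : ℝ)] (tuples K S D r) = 0)
    {C : ℝ≥0} (φ : Fin k → Eu d → ℝ) (hφ : ∀ i, LipschitzWith C (φ i)) (hk : 1 ≤ k) :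
    ∃ c : Fin k → ℝ, (∀ i, 0 < c i ∧ c i < 1 / 4) ∧
      ∀ (r : ℕ) (lam : Fin k → Fin r), Function.Surjective lam → ∀ y ∈ tuples K S D r,
        ∃ i i', lam i = lam i' ∧ c i - c i' ≠ φ i (y (lam i)) - φ i' (y (lam i)) := by
  classical
  let Bad : ℕ → Set (Fin k → ℝ) := fun r => ⋃ lam : Fin k → Fin r,
    {c | Function.Surjective lam ∧ ∃ y ∈ tuples K S D r, ∀ i i', lam i = lam i' →
      c i - c i' = φ i (y (lam i)) - φ i' (y (lam i))}
  have hBad : volume (⋃ r, Bad r) = 0 := by
    refine measure_iUnion_null fun r => measure_iUnion_null fun lam => ?_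
    by_cases hl : Function.Surjective lam
    · have hr : r ≤ k := by
        have := Fintype.card_le_of_surjective lam hl
        simpa using this
      have hr1 : 1 ≤ r := by
        have i0 : Fin k := ⟨0, by omega⟩
        have := (lam i0).2
        omega
      refine measure_mono_null ?_ (null_bad (tuples K S D r) (hZ r hr1 hr) φ hφ lam hl)
      rintro c ⟨-, hc⟩
      exact hc
    · refine measure_mono_null (t := ∅) ?_ measure_empty
      rintro c ⟨h, -⟩
      exact hl h
  have hbox : volume (Set.pi univ fun _ : Fin k => Ioo (0 : ℝ) (1 / 4)) ≠ 0 := by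
    rw [Real.volume_pi_Ioo]
    simp only [sub_zero, Finset.prod_const, ne_eq]
    positivity
  have hex : ∃ c ∈ Set.pi univ fun _ : Fin k => Ioo (0 : ℝ) (1 / 4), c ∉ ⋃ r, Bad r := by
    by_contra hcon
    push Not at hcon
    exact hbox (measure_mono_null hcon hBad)
  obtain ⟨c, hc, hcb⟩ := hex
  refine ⟨c, fun i => ⟨(hc i trivial).1, (hc i trivial).2⟩, ?_⟩
  intro r lam hl y hy
  by_contra hcon
  push Not at hcon
  exact hcb (mem_iUnion.2 ⟨r, mem_iUnion.2 ⟨lam, hl, y, hy, hcon⟩⟩)

end Vale.Agent.P052.H342
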