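import Mathlib.Topology.ShrinkingLemma
import Vale.Agent.P052.H342.Generic
import Vale.Agent.P052.Defs

/-!
Greedy extension of a cover by sets of smaller diameter.
-/

namespace Vale.Agent.P052.H342

open Set Metric Topology MeasureTheory
open scoped ENNReal NNReal

/-- A compact set without pairs at distance `D`, in a set whose distances are at most `D`, has
diameter smaller than `D`. -/
theorem diam_lt_of_no_far {d : ℕ} {A : Set (Eu d)} {D : ℝ} (hD : 0 < D) (hA : IsCompact A)
    (hle : ∀ x ∈ A, ∀ y ∈ A, dist x y ≤ D) (hne : ∀ x ∈ A, ∀ y ∈ A, dist x y ≠ D) :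
    diam A < D := by
  rcases A.eq_empty_or_nonempty with rfl | hAn
  · simpa using hD
  · have hcont : ContinuousOn (fun p : Eu d × Eu d => dist p.1 p.2) (A ×ˢ A) :=
      continuous_dist.continuousOn
    obtain ⟨p, hp, hmax⟩ := (hA.prod hA).exists_isMaxOn (hAn.prod hAn) hcont
    have h1 : diam A ≤ dist p.1 p.2 := by
      refine diam_le_of_forall_dist_le dist_nonneg ?_
      intro x hx y hy
      exact isMaxOn_iff.1 hmax (x, y) ⟨hx, hy⟩
    exact lt_of_le_of_lt h1 (lt_of_le_of_ne (hle _ hp.1 _ hp.2) (hne _ hp.1 _ hp.2))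

theorem isClosed_hit {d : ℕ} {B A : Set (Eu d)} (hB : IsCompact B) (hA : IsCompact A) (D : ℝ) :
    IsClosed {x | x ∈ B ∧ ∃ y ∈ A, dist x y = D} := by
  have : {x | x ∈ B ∧ ∃ y ∈ A, dist x y = D} =
      Prod.fst '' ((B ×ˢ A) ∩ {z : Eu d × Eu d | dist z.1 z.2 = D}) := by
    ext x
    constructor
    · rintro ⟨hx, y, hy, hxy⟩
      exact ⟨(x, y), ⟨⟨hx, hy⟩, hxy⟩, rfl⟩
    · rintro ⟨⟨a, b⟩, ⟨⟨h1, h2⟩, h3⟩, rfl⟩
      exact ⟨h1, b, h2, h3⟩
  rw [this]
  exact (((hB.prod hA).inter_right (isClosed_eq continuous_dist continuous_const)).image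
    continuous_fst).isClosed

/-- `R` is covered by `k` closed subsets of `K` of diameter smaller than `D`. -/
def Good {d : ℕ} (K : Set (Eu d)) (D : ℝ) (k : ℕ) (R : Set (Eu d)) : Prop :=
  ∃ A : Fin k → Set (Eu d), (∀ i, IsClosed (A i)) ∧ (∀ i, A i ⊆ K) ∧ (∀ i, diam (A i) < D) ∧
    R ⊆ ⋃ i, A i

/-- Shifting the cover into general position: every point outside `S` has a free colour. -/
theorem exists_free {d k : ℕ} {K S : Set (Eu d)} {D : ℝ} (hK : IsCompact K) (hD : 0 < D)
    (hle : ∀ x ∈ K, ∀ y ∈ K, dist x y ≤ D) (hk : 1 ≤ k)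
    (hZ : ∀ r, 1 ≤ r → r ≤ k → μH[((k - r : ℕ) : ℝ)] (tuples K S D r) = 0)
    {R : Set (Eu d)} (hR : Good K D k R) :
    ∃ A : Fin k → Set (Eu d), (∀ i, IsClosed (A i)) ∧ (∀ i, A i ⊆ K) ∧ (∀ i, diam (A i) < D) ∧
      R ⊆ (⋃ i, A i) ∧ ∀ x ∈ K, x ∉ S → ∃ i, ∀ y ∈ A i, dist x y ≠ D := by
  classical
  obtain ⟨A, hAcl, hAK, hAd, hAR⟩ := hR
  have : Nonempty (Fin k) := ⟨⟨0, by omega⟩⟩
  -- a uniform margin
  obtain ⟨i0, hi0⟩ := Finite.exists_max (fun i => diam (A i))
  set η : ℝ := (D - diam (A i0)) / 2 with hη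
  have hηpos : 0 < η := by
    have := hAd i0
    rw [hη]; linarith
  have hηd : ∀ i, diam (A i) + 2 * η ≤ D := by
    intro i
    have := hi0 i
    rw [hη]; linarith
  let φ : Fin k → Eu d → ℝ := fun i x => ((thickenedIndicator hηpos (A i) x : ℝ≥0) : ℝ)
  have hφL : ∀ i, LipschitzWith (1 * η.toNNReal⁻¹) (φ i) := fun i =>
    (NNReal.isometry_coe.lipschitz).comp (lipschitzWith_thickenedIndicator hηpos (A i))
  have hφ1 : ∀ i, ∀ x ∈ A i, φ i x = 1 := by
    intro i x hx
    simp only [φ]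
    rw [thickenedIndicator_one hηpos (A i) hx]
    simp
  have hφle : ∀ i x, φ i x ≤ 1 := by
    intro i x
    have := thickenedIndicator_le_one hηpos (A i) x
    exact_mod_cast this
  have hφ0 : ∀ i x, 0 < φ i x → x ∈ thickening η (A i) := by
    intro i x hx
    by_contra hcon
    have h0 : φ i x = 0 := by
      simp only [φ]
      rw [thickenedIndicator_zero hηpos (A i) hcon]
      simp
    linarith
  have hφc : ∀ i, Continuous (φ i) := fun i => (hφL i).continuous
  obtain ⟨c, hc, hgen⟩ := exists_generic hZ φ hφL hk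
  set U : Set (Eu d) := ⋃ i, A i with hU
  have hUcl : IsClosed U := isClosed_iUnion_of_finite hAcl
  have hUK : U ⊆ K := iUnion_subset hAK
  let A' : Fin k → Set (Eu d) := fun i => {x | x ∈ U ∧ ∀ j, φ j x - c j ≤ φ i x - c i}
  have hA'U : ∀ i, A' i ⊆ U := fun i x hx => hx.1
  have hA'cl : ∀ i, IsClosed (A' i) := by
    intro i
    have : A' i = U ∩ ⋂ j, {x | φ j x - c j ≤ φ i x - c i} := by
      ext x
      simp [A']
    rw [this]
    refine hUcl.inter (isClosed_iInter fun j => ?_)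
    exact isClosed_le ((hφc j).sub continuous_const) ((hφc i).sub continuous_const)
  have hbig : ∀ i, ∀ x ∈ A' i, 0 < φ i x := by
    rintro i x ⟨hxU, hx⟩
    obtain ⟨j, hj⟩ := mem_iUnion.1 hxU
    have h1 := hx j
    rw [hφ1 j x hj] at h1
    have h2 := hc i
    have h3 := hc j
    linarith [h2.1, h3.2]
  have hthick : ∀ i, ∀ x ∈ thickening η (A i), ∀ y ∈ thickening η (A i), dist x y < D := by
    intro i x hx y hy
    rw [mem_thickening_iff] at hx hy
    obtain ⟨z, hz, hxz⟩ := hx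
    obtain ⟨w, hw, hyw⟩ := hy
    have hbd : Bornology.IsBounded (A i) := hK.isBounded.subset (hAK i)
    have h1 : dist z w ≤ diam (A i) := dist_le_diam_of_mem hbd hz hw
    have h2 := dist_triangle4 x z w y
    rw [dist_comm w y] at h2
    linarith [hηd i]
  have hA'cp : ∀ i, IsCompact (A' i) := fun i =>
    hK.of_isClosed_subset (hA'cl i) ((hA'U i).trans hUK)
  refine ⟨A', hA'cl, fun i => (hA'U i).trans hUK, ?_, ?_, ?_⟩
  · intro i
    refine diam_lt_of_no_far hD (hA'cp i) ?_ ?_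
    · intro x hx y hy
      exact hle x (hUK (hA'U i hx)) y (hUK (hA'U i hy))
    · intro x hx y hy
      exact (hthick i x (hφ0 i x (hbig i x hx)) y (hφ0 i y (hbig i y hy))).ne
  · intro x hx
    have hxU : x ∈ U := hAR hx
    obtain ⟨i, hi⟩ := Finite.exists_max (fun i => φ i x - c i)
    exact mem_iUnion.2 ⟨i, hxU, hi⟩
  · intro x hx hxS
    by_contra hcon
    push Not at hcon
    choose y hyA hyD using hcon
    -- enumerate the distinct values of `y`
    let Y : Finset (Eu d) := Finset.univ.image y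
    let e : Fin Y.card ≃ Y := Y.equivFin.symm
    let lam : Fin k → Fin Y.card := fun i => e.symm ⟨y i, Finset.mem_image_of_mem y (Finset.mem_univ i)⟩
    have hlam : ∀ i, ((e (lam i) : Y) : Eu d) = y i := by
      intro i
      simp [lam]
    have hsurj : Function.Surjective lam := by
      intro l
      obtain ⟨i, -, hi⟩ := Finset.mem_image.1 (e l).2
      refine ⟨i, ?_⟩
      apply e.injective
      apply Subtype.ext
      rw [hlam i, hi]
    have hmem : (fun l => ((e l : Y) : Eu d)) ∈ tuples K S D Y.card := by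
      refine ⟨?_, ?_, x, hx, hxS, ?_⟩
      · intro l l' hll
        exact e.injective (Subtype.ext hll)
      · intro l
        obtain ⟨i, rfl⟩ := hsurj l
        change ((e (lam i) : Y) : Eu d) ∈ K
        rw [hlam i]
        exact hUK (hA'U i (hyA i))
      · intro l
        obtain ⟨i, rfl⟩ := hsurj l
        change dist x ((e (lam i) : Y) : Eu d) = D
        rw [hlam i]
        exact hyD i
    obtain ⟨i, i', hii, hne⟩ := hgen Y.card lam hsurj _ hmem
    apply hne
    have h1 : ((e (lam i) : Y) : Eu d) = y i := hlam i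
    have h2 : ((e (lam i) : Y) : Eu d) = y i' := by rw [hii]; exact hlam i'
    have h3 : y i = y i' := h1.symm.trans h2
    have h4 := (hyA i).2 i'
    have h5 := (hyA i').2 i
    rw [← h3] at h5
    simp only [h1]
    linarith

/-- One greedy step. -/
theorem good_union {d k : ℕ} {K S : Set (Eu d)} {D : ℝ} (hK : IsCompact K) (hD : 0 < D)
    (hle : ∀ x ∈ K, ∀ y ∈ K, dist x y ≤ D) (hk : 1 ≤ k)
    (hZ : ∀ r, 1 ≤ r → r ≤ k → μH[((k - r : ℕ) : ℝ)] (tuples K S D r) = 0)
    {R B : Set (Eu d)} (hR : Good K D k R) (hBcl : IsClosed B) (hBK : B ⊆ K) (hBd : diam B < D)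
    (hBS : Disjoint B S) : Good K D k (R ∪ B) := by
  classical
  obtain ⟨A, hAcl, hAK, hAd, hAR, hfree⟩ := exists_free hK hD hle hk hZ hR
  have hBc : IsCompact B := hK.of_isClosed_subset hBcl hBK
  have hAc : ∀ i, IsCompact (A i) := fun i => hK.of_isClosed_subset (hAcl i) (hAK i)
  obtain ⟨v, hv1, hv2, hv3⟩ := exists_subset_iUnion_closed_subset hBcl
    (u := fun i => {x | x ∈ B ∧ ∃ y ∈ A i, dist x y = D}ᶜ)
    (fun i => (isClosed_hit hBc (hAc i) D).isOpen_compl) (fun x _ => Set.toFinite _)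
    (by
      intro x hx
      obtain ⟨i, hi⟩ := hfree x (hBK hx) (fun hxS => Set.disjoint_left.1 hBS hx hxS)
      refine mem_iUnion.2 ⟨i, ?_⟩
      rintro ⟨-, y, hy, hxy⟩
      exact hi y hy hxy)
  refine ⟨fun i => A i ∪ (v i ∩ B), fun i => (hAcl i).union ((hv2 i).inter hBcl), ?_, ?_, ?_⟩
  · intro i
    exact union_subset (hAK i) (inter_subset_right.trans hBK)
  · intro i
    have hsub : A i ∪ (v i ∩ B) ⊆ K := union_subset (hAK i) (inter_subset_right.trans hBK)
    refine diam_lt_of_no_far hD (hK.of_isClosed_subset ((hAcl i).union ((hv2 i).inter hBcl)) hsub)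
      (fun x hx y hy => hle x (hsub hx) y (hsub hy)) ?_
    have hAbd : Bornology.IsBounded (A i) := hK.isBounded.subset (hAK i)
    have hBbd : Bornology.IsBounded B := hK.isBounded.subset hBK
    have hAB : ∀ x ∈ v i ∩ B, ∀ y ∈ A i, dist x y ≠ D := by
      rintro x ⟨hxv, hxB⟩ y hy hxy
      exact hv3 i hxv ⟨hxB, y, hy, hxy⟩
    rintro x (hx | hx) y (hy | hy)
    · exact (lt_of_le_of_lt (dist_le_diam_of_mem hAbd hx hy) (hAd i)).ne
    · rw [dist_comm]
      exact hAB y hy x hx
    · exact hAB x hx y hy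
    · exact (lt_of_le_of_lt (dist_le_diam_of_mem hBbd hx.2 hy.2) hBd).ne
  · rintro x (hx | hx)
    · obtain ⟨i, hi⟩ := mem_iUnion.1 (hAR hx)
      exact mem_iUnion.2 ⟨i, Or.inl hi⟩
    · obtain ⟨i, hi⟩ := mem_iUnion.1 (hv1 hx)
      exact mem_iUnion.2 ⟨i, Or.inr ⟨hi, hx⟩⟩

/-- The greedy theorem for a compact set. -/
theorem good_all {d k : ℕ} {K S : Set (Eu d)} {D : ℝ} (hK : IsCompact K) (hD : 0 < D)
    (hle : ∀ x ∈ K, ∀ y ∈ K, dist x y ≤ D) (hk : 1 ≤ k)
    (hZ : ∀ r, 1 ≤ r → r ≤ k → μH[((k - r : ℕ) : ℝ)] (tuples K S D r) = 0)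
    (P : Fin k → Set (Eu d)) (hP : S ∩ K ⊆ ⋃ i, P i)
    (hPb : ∀ i, Bornology.IsBounded (P i)) (hPd : ∀ i, diam (P i) < D) : Good K D k K := by
  classical
  have : Nonempty (Fin k) := ⟨⟨0, by omega⟩⟩
  obtain ⟨i0, hi0⟩ := Finite.exists_max (fun i => diam (P i))
  set η : ℝ := (D - diam (P i0)) / 4 with hη
  have hηpos : 0 < η := by
    have := hPd i0
    rw [hη]; linarith
  have hηd : ∀ i, diam (P i) + 4 * η ≤ D := by
    intro i
    have := hi0 i
    rw [hη]; linarith
  -- the first part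
  have hR0 : Good K D k (K ∩ ⋃ i, cthickening η (P i)) := by
    refine ⟨fun i => K ∩ cthickening η (P i), fun i => hK.isClosed.inter isClosed_cthickening,
      fun i => inter_subset_left, ?_, ?_⟩
    · intro i
      refine diam_lt_of_no_far hD (hK.inter_right isClosed_cthickening)
        (fun x hx y hy => hle x hx.1 y hy.1) ?_
      intro x hx y hy
      have hx2 := cthickening_subset_thickening' (δ₂ := 2 * η) (by linarith) (by linarith) _ hx.2
      have hy2 := cthickening_subset_thickening' (δ₂ := 2 * η) (by linarith) (by linarith) _ hy.2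
      rw [mem_thickening_iff] at hx2 hy2
      obtain ⟨z, hz, hxz⟩ := hx2
      obtain ⟨w, hw, hyw⟩ := hy2
      have h1 : dist z w ≤ diam (P i) := dist_le_diam_of_mem (hPb i) hz hw
      have h2 := dist_triangle4 x z w y
      rw [dist_comm w y] at h2
      have := hηd i
      exact ne_of_lt (by linarith)
    · rw [inter_iUnion]
  -- the rest
  set C : Set (Eu d) := K \ ⋃ i, thickening η (P i) with hC
  have hCc : IsCompact C := hK.diff (isOpen_iUnion fun i => isOpen_thickening)
  have hCS : ∀ x ∈ C, x ∉ S := by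
    rintro x ⟨hxK, hx⟩ hxS
    obtain ⟨i, hi⟩ := mem_iUnion.1 (hP ⟨hxS, hxK⟩)
    exact hx (mem_iUnion.2 ⟨i, self_subset_thickening hηpos _ hi⟩)
  obtain ⟨t, htC, htf, htcov⟩ := hCc.finite_cover_balls (e := D / 3) (by linarith)
  have hstep : ∀ t' : Set (Eu d), t'.Finite →
      Good K D k ((K ∩ ⋃ i, cthickening η (P i)) ∪ ⋃ x ∈ t', (C ∩ closedBall x (D / 3))) := by
    intro t' ht'
    induction t', ht' using Set.Finite.induction_on with
    | empty => simpa using hR0
    | @insert a s' ha hs' ih =>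
      have h1 := good_union (S := S) hK hD hle hk hZ ih (B := C ∩ closedBall a (D / 3))
        (hCc.isClosed.inter isClosed_closedBall) (inter_subset_left.trans sdiff_subset)
        (by
          have : diam (C ∩ closedBall a (D / 3)) ≤ 2 * (D / 3) := by
            refine (diam_mono inter_subset_right isBounded_closedBall).trans ?_
            exact diam_closedBall (by linarith)
          linarith)
        (by
          rw [Set.disjoint_left]
          intro x hx
          exact hCS x hx.1)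
      rw [biUnion_insert]
      have h2 : (K ∩ ⋃ i, cthickening η (P i)) ∪
          (C ∩ closedBall a (D / 3) ∪ ⋃ x ∈ s', C ∩ closedBall x (D / 3)) =
          ((K ∩ ⋃ i, cthickening η (P i)) ∪ ⋃ x ∈ s', C ∩ closedBall x (D / 3)) ∪
          (C ∩ closedBall a (D / 3)) := by
        ext x
        simp only [mem_union]
        tauto
      rw [h2]
      exact h1
  obtain ⟨A, hAcl, hAK, hAd, hAR⟩ := hstep t htf
  refine ⟨A, hAcl, hAK, hAd, ?_⟩
  intro x hx
  apply hAR
  by_cases hxt : x ∈ ⋃ i, thickening η (P i)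
  · left
    refine ⟨hx, ?_⟩
    obtain ⟨i, hi⟩ := mem_iUnion.1 hxt
    exact mem_iUnion.2 ⟨i, thickening_subset_cthickening _ _ hi⟩
  · right
    have hxC : x ∈ C := ⟨hx, hxt⟩
    obtain ⟨a, ha, hxa⟩ := mem_iUnion₂.1 (htcov hxC)
    exact mem_iUnion₂.2 ⟨a, ha, hxC, ball_subset_closedBall hxa⟩

/-- The greedy theorem for a bounded set of positive diameter. -/
theorem cover_greedy {d k : ℕ} (hk : 1 ≤ k) (X : Set (Eu d))
    (hX : Bornology.IsBounded X) (hD : 0 < diam X) (S : Set (Eu d))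
    (hZ : ∀ r, 1 ≤ r → r ≤ k →
      μH[((k - r : ℕ) : ℝ)] (tuples (closure X) S (diam X) r) = 0)
    (P : Fin k → Set (Eu d)) (hP : S ∩ closure X ⊆ ⋃ i, P i)
    (hPb : ∀ i, Bornology.IsBounded (P i)) (hPd : ∀ i, diam (P i) < diam X) :
    IsSmallerCover X k := by
  have hK : IsCompact (closure X) := hX.isCompact_closure
  have hle : ∀ x ∈ closure X, ∀ y ∈ closure X, dist x y ≤ diam X := by
    intro x hx y hy
    rw [← diam_closure X]
    exact dist_le_diam_of_mem hX.closure hx hy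
  obtain ⟨A, hAcl, hAK, hAd, hAR⟩ := good_all hK hD hle hk hZ P hP hPb hPd
  refine ⟨fun i => X ∩ A i, ?_, fun i => ?_⟩
  · rw [← inter_iUnion]
    exact inter_eq_left.2 (subset_closure.trans hAR)
  · exact lt_of_le_of_lt (diam_mono inter_subset_right (hX.closure.subset (hAK i))) (hAd i)

end Vale.Agent.P052.H342
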