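import Mathlib.Analysis.Convex.Measure
import Mathlib.Order.Zorn
import Vale.Agent.P052.H342.Greedy

/-!
The far graph outside a set; critical compact sets.
-/

namespace Vale.Agent.P052.H342

open Set Metric Topology MeasureTheory
open scoped ENNReal NNReal

/-- A point of `K` at distance `D` from some point of `K` lies on the frontier of the convex hull of
`K` if all distances in `K` are at most `D`. -/
theorem far_mem_frontier {d : ℕ} {K : Set (Eu d)} {D : ℝ} (hD : 0 < D)
    (hle : ∀ x ∈ K, ∀ y ∈ K, dist x y ≤ D) {x y : Eu d} (hx : x ∈ K) (hy : y ∈ K)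
    (hxy : dist x y = D) : y ∈ frontier (convexHull ℝ K) := by
  have hsub : convexHull ℝ K ⊆ closedBall x D := by
    refine convexHull_min ?_ (convex_closedBall x D)
    intro z hz
    rw [mem_closedBall, dist_comm]
    exact hle x hx z hz
  refine ⟨subset_closure (subset_convexHull ℝ K hy), fun hint => ?_⟩
  have h1 : y ∈ interior (closedBall x D) := interior_mono hsub hint
  rw [interior_closedBall x hD.ne', mem_ball, dist_comm] at h1
  linarith

theorem null_one {d k : ℕ} (hk : d + 1 ≤ k) {K S : Set (Eu d)} {D : ℝ} (hD : 0 < D)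
    (hle : ∀ x ∈ K, ∀ y ∈ K, dist x y ≤ D) :
    μH[((k - 1 : ℕ) : ℝ)] (tuples K S D 1) = 0 := by
  have h0 : μH[(Module.finrank ℝ (Eu d) : ℝ)] (frontier (convexHull ℝ K)) = 0 :=
    (convex_convexHull ℝ K).addHaar_frontier _
  have h1 : μH[((k - 1 : ℕ) : ℝ)] (frontier (convexHull ℝ K)) = 0 := by
    have h2 : (Module.finrank ℝ (Eu d) : ℝ) ≤ ((k - 1 : ℕ) : ℝ) := by
      rw [finrank_euclideanSpace_fin]
      exact_mod_cast (by omega : d ≤ k - 1)
    exact le_antisymm ((Measure.hausdorffMeasure_mono h2 _).trans h0.le) bot_le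
  have hiso : LipschitzWith 1 (fun (x : Eu d) (_ : Fin 1) => x) := by
    intro x y
    rw [ENNReal.coe_one, one_mul, edist_pi_le_iff]
    intro _
    exact le_rfl
  have h3 := hiso.hausdorffMeasure_image_le (d := ((k - 1 : ℕ) : ℝ)) (by positivity)
    (frontier (convexHull ℝ K))
  rw [h1, mul_zero] at h3
  refine measure_mono_null ?_ (le_antisymm h3 bot_le)
  rintro y ⟨-, hyK, x, hx, -, hxy⟩
  refine ⟨y 0, far_mem_frontier hD hle hx (hyK 0) (hxy 0), ?_⟩
  funext l
  rw [Subsingleton.elim l 0]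

/-- If `X` is covered by finitely many sets of smaller diameter, some number of pieces works. -/
theorem exists_cover {d : ℕ} (X : Set (Eu d)) (hX : Bornology.IsBounded X) (hD : 0 < diam X) :
    ∃ k, IsSmallerCover X k := by
  obtain ⟨t, -, htf, ht⟩ := exists_finite_cover_balls_of_isCompact_closure
    (s := X) (ε := diam X / 3) hX.isCompact_closure (by linarith)
  obtain ⟨k, f, hf⟩ := htf.fin_param
  have hmem : ∀ x ∈ X, ∃ i, x ∈ ball (f i) (diam X / 3) := by
    intro x hx
    obtain ⟨a, ha, hxa⟩ := mem_iUnion₂.1 (ht hx)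
    rw [← hf.2] at ha
    obtain ⟨i, rfl⟩ := ha
    exact ⟨i, hxa⟩
  refine ⟨k, fun i => X ∩ ball (f i) (diam X / 3), ?_, fun i => ?_⟩
  · ext x
    constructor
    · intro hx
      obtain ⟨i, hi⟩ := mem_iUnion.1 hx
      exact hi.1
    · intro hx
      obtain ⟨i, hi⟩ := hmem x hx
      exact mem_iUnion.2 ⟨i, hx, hi⟩
  · have : diam (X ∩ ball (f i) (diam X / 3)) ≤ 2 * (diam X / 3) :=
      (diam_mono inter_subset_right isBounded_ball).trans (diam_ball (by linarith))
    linarith

theorem cover_succ {d k : ℕ} {X : Set (Eu d)} (hD : 0 < diam X) (h : IsSmallerCover X k) :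
    IsSmallerCover X (k + 1) := by
  obtain ⟨P, hP, hPd⟩ := h
  refine ⟨Fin.snoc (α := fun _ => Set (Eu d)) P ∅, ?_, ?_⟩
  · rw [← hP]
    ext x
    simp only [mem_iUnion]
    constructor
    · rintro ⟨i, hi⟩
      revert hi
      refine Fin.lastCases ?_ (fun j => ?_) i
      · intro hi
        simp at hi
      · intro hi
        rw [Fin.snoc_castSucc] at hi
        exact ⟨j, hi⟩
    · rintro ⟨j, hj⟩
      exact ⟨j.castSucc, by rw [Fin.snoc_castSucc]; exact hj⟩
  · intro i
    refine Fin.lastCases ?_ (fun j => ?_) i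
    · simpa using hD
    · rw [Fin.snoc_castSucc]
      exact hPd j

theorem cover_mono {d k l : ℕ} {X : Set (Eu d)} (hD : 0 < diam X) (hkl : k ≤ l)
    (h : IsSmallerCover X k) : IsSmallerCover X l := by
  induction l, hkl using Nat.le_induction with
  | base => exact h
  | succ n _ ih => exact cover_succ hD ih

theorem cover_of_borsukNumber_le {d k : ℕ} {X : Set (Eu d)} (hX : Bornology.IsBounded X)
    (hD : 0 < diam X) (h : borsukNumber X ≤ k) : IsSmallerCover X k :=
  cover_mono hD h (Nat.sInf_mem (exists_cover X hX hD))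

theorem good_of_cover {d k : ℕ} {K : Set (Eu d)} (hK : IsCompact K)
    (h : IsSmallerCover K k) : Good K (diam K) k K := by
  obtain ⟨P, hP, hPd⟩ := h
  have hsub : ∀ i, P i ⊆ K := fun i => by
    rw [← hP]
    exact subset_iUnion P i
  refine ⟨fun i => closure (P i), fun i => isClosed_closure, fun i =>
    closure_minimal (hsub i) hK.isClosed, fun i => ?_, ?_⟩
  · rw [diam_closure]
    exact hPd i
  · intro x hx
    rw [← hP] at hx
    obtain ⟨i, hi⟩ := mem_iUnion.1 hx
    exact mem_iUnion.2 ⟨i, subset_closure hi⟩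

theorem cover_of_good {d k : ℕ} {K : Set (Eu d)}
    (h : Good K (diam K) k K) : IsSmallerCover K k := by
  obtain ⟨A, hAcl, hAK, hAd, hA⟩ := h
  exact ⟨A, Subset.antisymm (iUnion_subset hAK) hA, hAd⟩

theorem good_mono {d k : ℕ} {K L : Set (Eu d)} {D : ℝ} (hKb : Bornology.IsBounded K)
    (hL : IsClosed L) (hLK : L ⊆ K) (h : Good K D k K) : Good L D k L := by
  obtain ⟨A, hAcl, hAK, hAd, hA⟩ := h
  refine ⟨fun i => A i ∩ L, fun i => (hAcl i).inter hL, fun i => inter_subset_right, fun i => ?_,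
    ?_⟩
  · exact lt_of_le_of_lt (diam_mono inter_subset_left (hKb.subset (hAK i))) (hAd i)
  · intro x hx
    obtain ⟨i, hi⟩ := mem_iUnion.1 (hA (hLK hx))
    exact mem_iUnion.2 ⟨i, hi, hx⟩

/-- A set covered by `k` sets of diameter smaller than `D` has a neighbourhood with this
property: the version for compact sets inside a bounded one. -/
theorem good_nhds {d k : ℕ} {L : Set (Eu d)} {D : ℝ} (hL : IsCompact L)
    (hk : 1 ≤ k) (h : Good L D k L) :
    ∃ U : Set (Eu d), IsOpen U ∧ L ⊆ U ∧ ∀ M : Set (Eu d), IsClosed M → M ⊆ U → Good M D k M := by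
  obtain ⟨A, hAcl, hAK, hAd, hA⟩ := h
  have : Nonempty (Fin k) := ⟨⟨0, by omega⟩⟩
  obtain ⟨i0, hi0⟩ := Finite.exists_max (fun i => diam (A i))
  set η : ℝ := (D - diam (A i0)) / 4 with hη
  have hηpos : 0 < η := by
    have := hAd i0
    rw [hη]; linarith
  have hηd : ∀ i, diam (A i) + 4 * η ≤ D := by
    intro i
    have := hi0 i
    rw [hη]; linarith
  refine ⟨⋃ i, thickening η (A i), isOpen_iUnion fun i => isOpen_thickening, ?_, ?_⟩
  · intro x hx
    obtain ⟨i, hi⟩ := mem_iUnion.1 (hA hx)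
    exact mem_iUnion.2 ⟨i, self_subset_thickening hηpos _ hi⟩
  · intro M hM hMU
    refine ⟨fun i => M ∩ cthickening η (A i), fun i => hM.inter isClosed_cthickening,
      fun i => inter_subset_left, fun i => ?_, ?_⟩
    · have h1 : diam (M ∩ cthickening η (A i)) ≤ diam (A i) + 3 * η := by
        refine diam_le_of_forall_dist_le (by positivity) ?_
        intro x hx y hy
        have hx2 := cthickening_subset_thickening' (δ₂ := 3 / 2 * η) (by linarith) (by linarith)
          _ hx.2
        have hy2 := cthickening_subset_thickening' (δ₂ := 3 / 2 * η) (by linarith) (by linarith)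
          _ hy.2
        rw [mem_thickening_iff] at hx2 hy2
        obtain ⟨z, hz, hxz⟩ := hx2
        obtain ⟨w, hw, hyw⟩ := hy2
        have h1 : dist z w ≤ diam (A i) :=
          dist_le_diam_of_mem (hL.isBounded.subset (hAK i)) hz hw
        have h2 := dist_triangle4 x z w y
        rw [dist_comm w y] at h2
        linarith
      have := hηd i
      linarith
    · intro x hx
      obtain ⟨i, hi⟩ := mem_iUnion.1 (hMU hx)
      exact mem_iUnion.2 ⟨i, hx, thickening_subset_cthickening _ _ hi⟩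

/-- Inside a compact set without a cover there is a minimal one. -/
theorem exists_critical {d k : ℕ} {K : Set (Eu d)} {D : ℝ} (hK : IsCompact K)
    (hk : 1 ≤ k) (h : ¬ Good K D k K) :
    ∃ M : Set (Eu d), IsCompact M ∧ M ⊆ K ∧ ¬ Good M D k M ∧
      ∀ L : Set (Eu d), IsClosed L → L ⊆ M → L ≠ M → Good L D k L := by
  have H : ∀ c ⊆ {L : Set (Eu d) | IsClosed L ∧ L ⊆ K ∧ ¬ Good L D k L},
      IsChain (· ⊆ ·) c → c.Nonempty →
      ∃ lb ∈ {L : Set (Eu d) | IsClosed L ∧ L ⊆ K ∧ ¬ Good L D k L}, ∀ s ∈ c, lb ⊆ s := by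
    intro c hc hchain hne
    refine ⟨⋂₀ c, ⟨isClosed_sInter fun s hs => (hc hs).1, ?_, ?_⟩, fun s hs =>
      sInter_subset_of_mem hs⟩
    · obtain ⟨s, hs⟩ := hne
      exact (sInter_subset_of_mem hs).trans (hc hs).2.1
    · intro hgood
      have hcl : IsClosed (⋂₀ c) := isClosed_sInter fun s hs => (hc hs).1
      have hsub : ⋂₀ c ⊆ K := by
        obtain ⟨s, hs⟩ := hne
        exact (sInter_subset_of_mem hs).trans (hc hs).2.1
      obtain ⟨U, hUo, hLU, hU⟩ := good_nhds (hK.of_isClosed_subset hcl hsub) hk hgood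
      have hne' : Nonempty c := hne.to_subtype
      obtain ⟨⟨s, hs⟩, hsU⟩ := exists_subset_nhds_of_isCompact' (V := fun s : c => (s : Set (Eu d)))
        (by
          intro s t
          rcases hchain.total s.2 t.2 with h1 | h1
          · exact ⟨s, Subset.rfl, h1⟩
          · exact ⟨t, h1, Subset.rfl⟩)
        (fun s => hK.of_isClosed_subset (hc s.2).1 (hc s.2).2.1)
        (fun s => (hc s.2).1) (U := U)
        (by
          intro x hx
          refine hUo.mem_nhds (hLU ?_)
          rw [sInter_eq_iInter]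
          exact hx)
      exact (hc hs).2.2 (hU s (hc hs).1 hsU)
  obtain ⟨M, hMK, hM⟩ := zorn_superset_nonempty
    {L : Set (Eu d) | IsClosed L ∧ L ⊆ K ∧ ¬ Good L D k L} H K ⟨hK.isClosed, Subset.rfl, h⟩
  refine ⟨M, hK.of_isClosed_subset hM.prop.1 hMK, hMK, hM.prop.2.2, ?_⟩
  intro L hL hLM hne
  by_contra hcon
  have := hM.le_of_le (y := L) ⟨hL, hLM.trans hMK, hcon⟩ hLM
  exact hne (Subset.antisymm hLM this)

/-- The local richness of a critical set. -/
theorem critical_rich {d k : ℕ} {M : Set (Eu d)} {D : ℝ} (hM : IsCompact M) (hD : 0 < D)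
    (hle : ∀ x ∈ M, ∀ y ∈ M, dist x y ≤ D) (hk : d + 1 ≤ k) (h : ¬ Good M D k M)
    (hmin : ∀ L : Set (Eu d), IsClosed L → L ⊆ M → L ≠ M → Good L D k L)
    (V : Set (Eu d)) (hV : IsOpen V) (hVM : (V ∩ M).Nonempty) :
    ∃ r, 2 ≤ r ∧ r ≤ k ∧ μH[((k - r : ℕ) : ℝ)] (tuples M Vᶜ D r) ≠ 0 := by
  by_contra hcon
  push Not at hcon
  have hk1 : 1 ≤ k := by omega
  obtain ⟨P, hPcl, hPK, hPd, hP⟩ := hmin (M ∩ Vᶜ) (hM.isClosed.inter hV.isClosed_compl)
    inter_subset_left (by
      intro heq
      obtain ⟨x, hxV, hxM⟩ := hVM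
      have : x ∈ M ∩ Vᶜ := by rw [heq]; exact hxM
      exact this.2 hxV)
  refine h (good_all (S := Vᶜ) hM hD hle hk1 ?_ P (by rw [inter_comm]; exact hP)
    (fun i => hM.isBounded.subset ((hPK i).trans inter_subset_left)) hPd)
  intro r hr1 hr2
  rcases Nat.lt_or_ge r 2 with h1 | h1
  · have : r = 1 := by omega
    subst this
    exact null_one hk hD hle
  · exact hcon r h1 hr2

end Vale.Agent.P052.H342
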