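import Vale.Agent.P052.H342.Core

/-!
The main statements about the singular core, in explicit form.
-/

namespace Vale.Agent.P052.H342

open Set Metric Topology MeasureTheory
open scoped ENNReal NNReal

theorem cast_sub' {k r : ℕ} (h : r ≤ k) : ((k - r : ℕ) : ℝ) = (k : ℝ) - r := by
  exact Nat.cast_sub h

theorem main_greedy (d k : ℕ) (hk : 1 ≤ k) (X : Set (Eu d)) (hX : Bornology.IsBounded X)
    (hD : 0 < diam X) (S : Set (Eu d)) (P : Fin k → Set (Eu d))
    (hPb : ∀ i, Bornology.IsBounded (P i)) (hPd : ∀ i, diam (P i) < diam X)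
    (hP : S ∩ closure X ⊆ ⋃ i, P i)
    (hZ : ∀ r : ℕ, 1 ≤ r → r ≤ k → μH[(k : ℝ) - r] {y : Fin r → Eu d | Function.Injective y ∧
      (∀ l, y l ∈ closure X) ∧ ∃ x ∈ closure X, x ∉ S ∧ ∀ l, dist x (y l) = diam X} = 0) :
    IsSmallerCover X k := by
  refine cover_greedy hk X hX hD S ?_ P hP hPb hPd
  intro r hr1 hr2
  rw [cast_sub' hr2]
  exact hZ r hr1 hr2

theorem main_reduction (d k : ℕ) (hk : d + 1 ≤ k) (X : Set (Eu d)) (hX : Bornology.IsBounded X)
    (hD : 0 < diam X) (P : Fin k → Set (Eu d))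
    (hPb : ∀ i, Bornology.IsBounded (P i)) (hPd : ∀ i, diam (P i) < diam X)
    (hP : ∀ x ∈ closure X, ∀ y ∈ closure X, ∀ z ∈ closure X, y ≠ z → dist x y = diam X →
      dist x z = diam X → x ∈ ⋃ i, P i) :
    IsSmallerCover X k := by
  refine cover_greedy (by omega) X hX hD (⋃ i, P i) ?_ P inter_subset_left hPb hPd
  intro r hr1 hr2
  have hle : ∀ x ∈ closure X, ∀ y ∈ closure X, dist x y ≤ diam X := by
    intro x hx y hy
    rw [← diam_closure X]
    exact dist_le_diam_of_mem hX.closure hx hy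
  rcases Nat.lt_or_ge r 2 with h1 | h1
  · have : r = 1 := by omega
    subst this
    exact null_one hk hD hle
  · have : tuples (closure X) (⋃ i, P i) (diam X) r = ∅ := by
      rw [Set.eq_empty_iff_forall_notMem]
      rintro y ⟨hy1, hy2, x, hx, hxP, hxy⟩
      apply hxP
      have hne : y ⟨0, by omega⟩ ≠ y ⟨1, by omega⟩ := by
        intro h2
        have := hy1 h2
        simp at this
      exact hP x hx _ (hy2 _) _ (hy2 _) hne (hxy _) (hxy _)
    rw [this]
    exact measure_empty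

theorem main_critical (d k : ℕ) (hk : d + 1 ≤ k) (X : Set (Eu d)) (hX : Bornology.IsBounded X)
    (hD : 0 < diam X) (h : ¬ IsSmallerCover X k) :
    ∃ M : Set (Eu d), IsCompact M ∧ M ⊆ closure X ∧ diam M = diam X ∧ ¬ IsSmallerCover M k ∧
      (∀ L : Set (Eu d), IsClosed L → L ⊆ M → L ≠ M →
        ∃ P : Fin k → Set (Eu d), (⋃ i, P i) = L ∧ ∀ i, diam (P i) < diam M) ∧
      ∀ V : Set (Eu d), IsOpen V → (M ∩ V).Nonempty →
        ∃ r : ℕ, 2 ≤ r ∧ r ≤ k ∧ 0 < μH[(k : ℝ) - r] {y : Fin r → Eu d |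
          Function.Injective y ∧ (∀ l, y l ∈ M) ∧ ∃ x ∈ M ∩ V, ∀ l, dist x (y l) = diam M} := by
  have hk1 : 1 ≤ k := by omega
  have hK : IsCompact (closure X) := hX.isCompact_closure
  have hle : ∀ x ∈ closure X, ∀ y ∈ closure X, dist x y ≤ diam X := by
    intro x hx y hy
    rw [← diam_closure X]
    exact dist_le_diam_of_mem hX.closure hx hy
  have hnot : ¬ Good (closure X) (diam X) k (closure X) := by
    rintro ⟨A, hAcl, hAK, hAd, hA⟩
    apply h
    refine ⟨fun i => X ∩ A i, ?_, fun i => ?_⟩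
    · rw [← inter_iUnion]
      exact inter_eq_left.2 (subset_closure.trans hA)
    · exact lt_of_le_of_lt (diam_mono inter_subset_right (hX.closure.subset (hAK i))) (hAd i)
  obtain ⟨M, hM, hMK, hMnot, hMmin⟩ := exists_critical hK hk1 hnot
  have hdM : diam M = diam X := by
    refine le_antisymm ?_ ?_
    · rw [← diam_closure X]
      exact diam_mono hMK hX.closure
    · by_contra hlt
      push Not at hlt
      apply hMnot
      refine ⟨fun _ => M, fun _ => hM.isClosed, fun _ => Subset.rfl, fun _ => hlt, ?_⟩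
      intro x hx
      exact mem_iUnion.2 ⟨⟨0, by omega⟩, hx⟩
  refine ⟨M, hM, hMK, hdM, ?_, ?_, ?_⟩
  · intro hc
    apply hMnot
    have := good_of_cover hM hc
    rwa [hdM] at this
  · intro L hL hLM hne
    obtain ⟨A, hAcl, hAK, hAd, hA⟩ := hMmin L hL hLM hne
    refine ⟨A, Subset.antisymm (iUnion_subset hAK) hA, fun i => ?_⟩
    rw [hdM]
    exact hAd i
  · intro V hV hVM
    obtain ⟨r, hr1, hr2, hr3⟩ := critical_rich hM hD
      (fun x hx y hy => hle x (hMK hx) y (hMK hy)) hk hMnot hMmin V hV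
      (by rw [inter_comm]; exact hVM)
    refine ⟨r, hr1, hr2, ?_⟩
    rw [pos_iff_ne_zero, ← cast_sub' hr2]
    refine fun h0 => hr3 (measure_mono_null ?_ h0)
    rintro y ⟨hy1, hy2, x, hx, hxV, hxy⟩
    refine ⟨hy1, hy2, x, ⟨hx, not_not.1 hxV⟩, ?_⟩
    rw [hdM]
    exact hxy

theorem main_equiv (d : ℕ) :
    BorsukConjecture d ↔ ∀ M : Set (Eu d), IsCompact M → 0 < diam M →
      (∀ V : Set (Eu d), IsOpen V → (M ∩ V).Nonempty → ∃ x ∈ M ∩ V, ∃ y ∈ M, ∃ z ∈ M, y ≠ z ∧
        dist x y = diam M ∧ dist x z = diam M) → borsukNumber M ≤ d + 1 := by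
  constructor
  · intro h M hM hD _
    exact h M hM.isBounded hD
  · intro h X hX hD
    by_contra hcon
    have hnot : ¬ IsSmallerCover X (d + 1) := fun hc => hcon (Nat.sInf_le hc)
    obtain ⟨M, hM, hMK, hdM, hMnot, hMmin, hrich⟩ := main_critical d (d + 1) le_rfl X hX hD hnot
    have hDM : 0 < diam M := by rw [hdM]; exact hD
    apply hMnot
    refine cover_of_borsukNumber_le hM.isBounded hDM (h M hM hDM ?_)
    intro V hV hVM
    obtain ⟨r, hr1, hr2, hr3⟩ := hrich V hV hVM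
    have hne : {y : Fin r → Eu d | Function.Injective y ∧ (∀ l, y l ∈ M) ∧
        ∃ x ∈ M ∩ V, ∀ l, dist x (y l) = diam M}.Nonempty := by
      rw [Set.nonempty_iff_ne_empty]
      intro h0
      rw [h0, measure_empty] at hr3
      exact lt_irrefl _ hr3
    obtain ⟨y, hy1, hy2, x, hx, hxy⟩ := hne
    refine ⟨x, hx, y ⟨0, by omega⟩, hy2 _, y ⟨1, by omega⟩, hy2 _, ?_, hxy _, hxy _⟩
    intro h2
    have := hy1 h2
    simp at this

end Vale.Agent.P052.H342
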