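import Mathlib.Analysis.InnerProductSpace.PiL2
import Mathlib.Topology.MetricSpace.Bounded
import Mathlib.Topology.Sequences
import Vale.Agent.P052.Defs

/-!
Borsuk's partition problem: if a continuous map on the closure of `X` is constant on the far points
of every point and separates the two ends of every pair at maximal distance, then `X` is a union
of `m + 1` subsets of smaller diameter, where `m` is the dimension of the target.
-/

namespace Vale.Agent.P052.H342

open Set Metric Topology Filter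

/-- The `m + 1` linear functionals (the coordinates and minus their sum). -/
def ell {m : ℕ} (v : Fin m → ℝ) : Fin (m + 1) → ℝ :=
  Fin.snoc (α := fun _ => ℝ) v (-∑ i, v i)

theorem ell_castSucc {m : ℕ} (v : Fin m → ℝ) (i : Fin m) : ell v i.castSucc = v i := by
  simp [ell]

theorem ell_last {m : ℕ} (v : Fin m → ℝ) : ell v (Fin.last m) = -∑ i, v i := by
  simp [ell]

theorem ell_sum {m : ℕ} (v : Fin m → ℝ) : ∑ i, ell v i = 0 := by
  rw [Fin.sum_univ_castSucc]
  simp [ell_castSucc, ell_last]

theorem ell_neg {m : ℕ} (v : Fin m → ℝ) (i : Fin (m + 1)) : ell (-v) i = - ell v i := by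
  refine Fin.lastCases ?_ (fun j => ?_) i
  · simp [ell_last]
  · simp [ell_castSucc]

theorem ell_continuous {m : ℕ} (i : Fin (m + 1)) : Continuous fun v : Fin m → ℝ => ell v i := by
  refine Fin.lastCases ?_ (fun j => ?_) i
  · simp only [ell_last]
    fun_prop
  · simp only [ell_castSucc]
    fun_prop

theorem eq_zero_of_argmax {m : ℕ} {v : Fin m → ℝ} {i : Fin (m + 1)}
    (h1 : ∀ j, ell v j ≤ ell v i) (h2 : ∀ j, ell (-v) j ≤ ell (-v) i) : v = 0 := by
  have h3 : ∀ j, ell v j = ell v i := by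
    intro j
    have := h2 j
    rw [ell_neg, ell_neg] at this
    linarith [h1 j]
  have h4 : ((m : ℝ) + 1) * ell v i = 0 := by
    have := ell_sum v
    rw [Finset.sum_congr rfl (fun j _ => h3 j)] at this
    simpa using this
  have h5 : ell v i = 0 := by
    rcases mul_eq_zero.1 h4 with h | h
    · have h6 : (0 : ℝ) < (m : ℝ) + 1 := by positivity
      exact absurd h h6.ne'
    · exact h
  funext j
  have := h3 j.castSucc
  rw [ell_castSucc, h5] at this
  simpa using this

theorem exists_argmax {m : ℕ} (v : Fin m → ℝ) : ∃ i, ∀ j, ell v j ≤ ell v i :=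
  Finite.exists_max (ell v)

/-- The index of a largest functional. -/
noncomputable def col {m : ℕ} (v : Fin m → ℝ) : Fin (m + 1) := (exists_argmax v).choose

theorem col_spec {m : ℕ} (v : Fin m → ℝ) (j : Fin (m + 1)) : ell v j ≤ ell v (col v) :=
  (exists_argmax v).choose_spec j

theorem isClosed_same (m : ℕ) : IsClosed {p : (Fin m → ℝ) × (Fin m → ℝ) |
    ∃ i, (∀ j, ell p.1 j ≤ ell p.1 i) ∧ (∀ j, ell p.2 j ≤ ell p.2 i)} := by
  have : {p : (Fin m → ℝ) × (Fin m → ℝ) |
      ∃ i, (∀ j, ell p.1 j ≤ ell p.1 i) ∧ (∀ j, ell p.2 j ≤ ell p.2 i)} =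
      ⋃ i, ((⋂ j, {p : (Fin m → ℝ) × (Fin m → ℝ) | ell p.1 j ≤ ell p.1 i}) ∩
        (⋂ j, {p : (Fin m → ℝ) × (Fin m → ℝ) | ell p.2 j ≤ ell p.2 i})) := by
    ext p
    simp
  rw [this]
  refine isClosed_iUnion_of_finite fun i => IsClosed.inter ?_ ?_
  · exact isClosed_iInter fun j => isClosed_le ((ell_continuous j).comp continuous_fst)
      ((ell_continuous i).comp continuous_fst)
  · exact isClosed_iInter fun j => isClosed_le ((ell_continuous j).comp continuous_snd)
      ((ell_continuous i).comp continuous_snd)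

/-- A colouring with `k` colours such that any two points of the same colour are at distance at
most `D - ε` gives a cover by `k` subsets of smaller diameter. -/
theorem cover_of_colouring {d k : ℕ} {X : Set (EuclideanSpace ℝ (Fin d))} {ε : ℝ} (hε : 0 < ε)
    (hε' : ε ≤ diam X) (c : EuclideanSpace ℝ (Fin d) → Fin k)
    (hc : ∀ x ∈ X, ∀ y ∈ X, c x = c y → dist x y ≤ diam X - ε) : IsSmallerCover X k := by
  refine ⟨fun i => {x | x ∈ X ∧ c x = i}, ?_, fun i => ?_⟩
  · ext x
    simp
  · have : diam {x | x ∈ X ∧ c x = i} ≤ diam X - ε := by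
      refine diam_le_of_forall_dist_le (by linarith) ?_
      rintro x ⟨hx, hxi⟩ y ⟨hy, hyi⟩
      exact hc x hx y hy (hxi.trans hyi.symm)
    linarith

theorem cover_of_map {d m : ℕ} (X : Set (EuclideanSpace ℝ (Fin d)))
    (hX : Bornology.IsBounded X) (hD : 0 < diam X) (ν : EuclideanSpace ℝ (Fin d) → (Fin m → ℝ))
    (hν : ContinuousOn ν (closure X))
    (hc : ∀ x ∈ closure X, ∀ y ∈ closure X, ∀ y' ∈ closure X, dist x y = diam X →
      dist x y' = diam X → ν y = ν y')
    (hs : ∀ x ∈ closure X, ∀ y ∈ closure X, dist x y = diam X → ν x ≠ ν y) :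
    IsSmallerCover X (m + 1) := by
  classical
  by_contra hno
  set D := diam X with hDdef
  have hK : IsCompact (closure X) := hX.isCompact_closure
  have hle : ∀ x ∈ closure X, ∀ y ∈ closure X, dist x y ≤ D := by
    intro x hx y hy
    rw [hDdef, ← diam_closure X]
    exact dist_le_diam_of_mem hX.closure hx hy
  let ε : ℕ → ℝ := fun k => D / ((k : ℝ) + 1)
  have hε : ∀ k, 0 < ε k := fun k => by positivity
  have hε' : ∀ k, ε k ≤ D := fun k => by
    have : (1 : ℝ) ≤ (k : ℝ) + 1 := by
      have := Nat.cast_nonneg (α := ℝ) k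
      linarith
    exact div_le_self hD.le this
  have hεlim : Tendsto ε atTop (𝓝 0) := by
    have := tendsto_one_div_add_atTop_nhds_zero_nat (𝕜 := ℝ)
    have h2 := this.const_mul D
    simp only [mul_zero] at h2
    refine h2.congr fun k => ?_
    simp only [ε]
    ring
  -- the chosen almost-far partner
  let w : ℕ → EuclideanSpace ℝ (Fin d) → EuclideanSpace ℝ (Fin d) := fun k x =>
    if h : ∃ y ∈ closure X, D - ε k < dist x y then h.choose else x
  have hw : ∀ k x, (∃ y ∈ closure X, D - ε k < dist x y) →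
      w k x ∈ closure X ∧ D - ε k < dist x (w k x) := by
    intro k x h
    simp only [w, dif_pos h]
    exact h.choose_spec
  have hbad : ∀ k, ∃ x ∈ X, ∃ y ∈ X, col (ν x - ν (w k x)) = col (ν y - ν (w k y)) ∧
      D - ε k < dist x y := by
    intro k
    by_contra hcon
    push Not at hcon
    exact hno (cover_of_colouring (hε k) (hε' k) (fun x => col (ν x - ν (w k x)))
      (fun x hx y hy h => hcon x hx y hy h))
  choose x hx y hy hcol hdist using hbad
  have hxK : ∀ k, x k ∈ closure X := fun k => subset_closure (hx k)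
  have hyK : ∀ k, y k ∈ closure X := fun k => subset_closure (hy k)
  have hwx : ∀ k, w k (x k) ∈ closure X ∧ D - ε k < dist (x k) (w k (x k)) := fun k =>
    hw k _ ⟨y k, hyK k, hdist k⟩
  have hwy : ∀ k, w k (y k) ∈ closure X ∧ D - ε k < dist (y k) (w k (y k)) := fun k =>
    hw k _ ⟨x k, hxK k, by rw [dist_comm]; exact hdist k⟩
  obtain ⟨⟨a, b, p, q⟩, hmem, φ, hφ, hlim⟩ :=
    (hK.prod (hK.prod (hK.prod hK))).tendsto_subseq
      (x := fun k => (x k, y k, w k (x k), w k (y k)))
      (fun k => ⟨hxK k, hyK k, (hwx k).1, (hwy k).1⟩)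
  obtain ⟨ha, hb, hp, hq⟩ := hmem
  simp only at ha hb hp hq
  have la : Tendsto (fun k => x (φ k)) atTop (𝓝 a) := (continuous_fst.tendsto _).comp hlim
  have l2 := (continuous_snd.tendsto _).comp hlim
  have lb : Tendsto (fun k => y (φ k)) atTop (𝓝 b) := (continuous_fst.tendsto _).comp l2
  have l3 := (continuous_snd.tendsto _).comp l2
  have lp : Tendsto (fun k => w (φ k) (x (φ k))) atTop (𝓝 p) := (continuous_fst.tendsto _).comp l3
  have lq : Tendsto (fun k => w (φ k) (y (φ k))) atTop (𝓝 q) := (continuous_snd.tendsto _).comp l3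
  have lε : Tendsto (fun k => D - ε (φ k)) atTop (𝓝 (D - 0)) :=
    tendsto_const_nhds.sub (hεlim.comp hφ.tendsto_atTop)
  rw [sub_zero] at lε
  have hab : dist a b = D := le_antisymm (hle a ha b hb)
    (le_of_tendsto_of_tendsto' lε (la.dist lb) fun k => (hdist (φ k)).le)
  have hap : dist a p = D := le_antisymm (hle a ha p hp)
    (le_of_tendsto_of_tendsto' lε (la.dist lp) fun k => (hwx (φ k)).2.le)
  have hbq : dist b q = D := le_antisymm (hle b hb q hq)
    (le_of_tendsto_of_tendsto' lε (lb.dist lq) fun k => (hwy (φ k)).2.le)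
  have hνlim : ∀ {u : ℕ → EuclideanSpace ℝ (Fin d)} {c : EuclideanSpace ℝ (Fin d)},
      (∀ k, u k ∈ closure X) → c ∈ closure X → Tendsto u atTop (𝓝 c) →
      Tendsto (fun k => ν (u k)) atTop (𝓝 (ν c)) := by
    intro u c hu hc' hlim'
    exact (hν c hc').tendsto.comp (tendsto_nhdsWithin_iff.2 ⟨hlim', Eventually.of_forall hu⟩)
  have n1 : Tendsto (fun k => ν (x (φ k)) - ν (w (φ k) (x (φ k)))) atTop (𝓝 (ν a - ν p)) :=
    (hνlim (fun k => hxK _) ha la).sub (hνlim (fun k => (hwx _).1) hp lp)
  have n2 : Tendsto (fun k => ν (y (φ k)) - ν (w (φ k) (y (φ k)))) atTop (𝓝 (ν b - ν q)) :=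
    (hνlim (fun k => hyK _) hb lb).sub (hνlim (fun k => (hwy _).1) hq lq)
  have hpb : ν p = ν b := hc a ha p hp b hb hap hab
  have hqa : ν q = ν a := hc b hb q hq a ha hbq (by rw [dist_comm]; exact hab)
  rw [hpb] at n1
  rw [hqa] at n2
  have hmemA := (isClosed_same m).mem_of_tendsto (n1.prodMk_nhds n2)
    (Eventually.of_forall fun k => ⟨col (ν (x (φ k)) - ν (w (φ k) (x (φ k)))),
      col_spec _, by rw [hcol (φ k)]; exact col_spec _⟩)
  obtain ⟨i, h1, h2⟩ := hmemA
  simp only at h1 h2
  have h3 : ν b - ν a = -(ν a - ν b) := by abel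
  rw [h3] at h2
  have h4 := eq_zero_of_argmax h1 h2
  exact hs a ha b hb hab (sub_eq_zero.1 h4)

end Vale.Agent.P052.H342
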