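import Mathlib.Analysis.InnerProductSpace.PiL2
import Mathlib.Topology.UrysohnsLemma
import Mathlib.Topology.Separation.Regular
import Vale.Agent.P052.H342.MapCover

/-!
Borsuk's partition problem: the criterion with a Hausdorff quotient in which the far points of
every point are identified and in which the far vectors over every point lie in an open half-space.
-/

namespace Vale.Agent.P052.H342

open Set Metric Topology Filter
open scoped InnerProductSpace

theorem cover_of_quotient {d : ℕ} (X : Set (EuclideanSpace ℝ (Fin d)))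
    (hX : Bornology.IsBounded X) (hD : 0 < diam X) {T : Type*} [TopologicalSpace T] [T2Space T]
    (q : EuclideanSpace ℝ (Fin d) → T) (hq : ContinuousOn q (closure X))
    (hc : ∀ x ∈ closure X, ∀ y ∈ closure X, ∀ y' ∈ closure X, dist x y = diam X →
      dist x y' = diam X → q y = q y')
    (hp : ∀ x ∈ closure X, ∃ p : EuclideanSpace ℝ (Fin d), ∀ x' ∈ closure X, ∀ y' ∈ closure X,
      q x' = q x → dist x' y' = diam X → 0 < ⟪p, x' - y'⟫_ℝ) :
    IsSmallerCover X (d + 1) := by
  classical
  have hK : IsCompact (closure X) := hX.isCompact_closure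
  set Q : Set T := q '' closure X with hQ
  have hQc : IsCompact Q := hK.image_of_continuousOn hq
  have : CompactSpace Q := isCompact_iff_compactSpace.1 hQc
  -- representatives and certificates
  have hrep : ∀ s : Q, ∃ x ∈ closure X, q x = s := fun s => s.2
  choose r hrK hrq using hrep
  choose p hpp using fun s : Q => hp (r s) (hrK s)
  -- the set of points over which the certificate fails
  let C : Q → Set T := fun s => (fun z : EuclideanSpace ℝ (Fin d) × EuclideanSpace ℝ (Fin d) =>
    q z.1) '' ((closure X ×ˢ closure X) ∩ {z | dist z.1 z.2 = diam X ∧ ⟪p s, z.1 - z.2⟫_ℝ ≤ 0})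
  have hC : ∀ s, IsClosed (C s) := by
    intro s
    apply IsCompact.isClosed
    apply IsCompact.image_of_continuousOn
    · refine (hK.prod hK).inter_right ?_
      refine (isClosed_eq continuous_dist continuous_const).inter ?_
      exact isClosed_le (f := fun z : EuclideanSpace ℝ (Fin d) × EuclideanSpace ℝ (Fin d) =>
        ⟪p s, z.1 - z.2⟫_ℝ) (g := fun _ => (0 : ℝ))
        (continuous_const.inner (continuous_fst.sub continuous_snd)) continuous_const
    · exact hq.comp continuousOn_fst (fun z hz => hz.1.1)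
  have hsC : ∀ s : Q, (s : T) ∉ C s := by
    rintro s ⟨z, ⟨⟨hz1, hz2⟩, hz3, hz4⟩, hz5⟩
    have := hpp s z.1 hz1 z.2 hz2 (by rw [hrq s]; exact hz5) hz3
    linarith
  have hU : ∀ s : Q, ∃ f : C(Q, ℝ), (∀ c : Q, (c : T) ∈ C s → f c = 0) ∧ f s = 1 ∧
      ∀ c, 0 ≤ f c := by
    intro s
    obtain ⟨f, hf0, hf1, hf2⟩ := exists_continuous_zero_one_of_isClosed
      (s := {c : Q | (c : T) ∈ C s}) (t := {s})
      ((hC s).preimage continuous_subtype_val) isClosed_singleton
      (by
        rw [Set.disjoint_singleton_right]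
        exact hsC s)
    exact ⟨f, fun c hc => hf0 hc, hf1 rfl, fun c => (hf2 c).1⟩
  choose f hf0 hf1 hf2 using hU
  obtain ⟨F, hF⟩ := CompactSpace.elim_nhds_subcover (fun s : Q => {c : Q | 0 < f s c})
    (fun s => (isOpen_lt continuous_const (f s).continuous).mem_nhds (by simp [hf1 s]))
  -- the map
  let g : Q → EuclideanSpace ℝ (Fin d) := fun c => ∑ s ∈ F, f s c • p s
  have hg : Continuous g := by
    refine continuous_finsetSum _ fun s _ => ?_
    exact (f s).continuous.smul continuous_const
  let ν : EuclideanSpace ℝ (Fin d) → EuclideanSpace ℝ (Fin d) := fun x =>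
    if h : x ∈ closure X then g ⟨q x, mem_image_of_mem q h⟩ else 0
  have hνc : ContinuousOn ν (closure X) := by
    rw [continuousOn_iff_continuous_domRestrict]
    have : (fun x : closure X => ν x) =
        fun x : closure X => g ⟨q x, mem_image_of_mem q x.2⟩ := by
      funext x
      exact dif_pos x.2
    change Continuous (fun x : closure X => ν x)
    rw [this]
    refine hg.comp ?_
    exact Continuous.subtype_mk (continuousOn_iff_continuous_domRestrict.1 hq) _
  have hpos : ∀ x ∈ closure X, ∀ y ∈ closure X, dist x y = diam X → 0 < ⟪ν x, x - y⟫_ℝ := by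
    intro x hx y hy hxy
    have h1 : ν x = ∑ s ∈ F, f s ⟨q x, mem_image_of_mem q hx⟩ • p s := by
      simp only [ν, dif_pos hx, g]
    rw [h1, sum_inner]
    have hterm : ∀ s ∈ F, 0 ≤ ⟪f s ⟨q x, mem_image_of_mem q hx⟩ • p s, x - y⟫_ℝ ∧
        (0 < f s ⟨q x, mem_image_of_mem q hx⟩ →
          0 < ⟪f s ⟨q x, mem_image_of_mem q hx⟩ • p s, x - y⟫_ℝ) := by
      intro s _
      rw [real_inner_smul_left]
      by_cases hz : 0 < ⟪p s, x - y⟫_ℝ
      · exact ⟨mul_nonneg (hf2 s _) hz.le, fun h => mul_pos h hz⟩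
      · have hmem : ((⟨q x, mem_image_of_mem q hx⟩ : Q) : T) ∈ C s :=
          ⟨(x, y), ⟨⟨hx, hy⟩, hxy, not_lt.1 hz⟩, rfl⟩
        rw [hf0 s _ hmem]
        simp
    have hmemF : (⟨q x, mem_image_of_mem q hx⟩ : Q) ∈ ⋃ s ∈ F, {c : Q | 0 < f s c} := by
      rw [hF]; trivial
    simp only [mem_iUnion, mem_ofPred_eq, exists_prop] at hmemF
    obtain ⟨s, hsF, hs⟩ := hmemF
    exact Finset.sum_pos' (fun s hs => (hterm s hs).1) ⟨s, hsF, (hterm s hsF).2 hs⟩
  refine cover_of_map X hX hD (fun x => EuclideanSpace.equiv (Fin d) ℝ (ν x)) ?_ ?_ ?_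
  · exact (EuclideanSpace.equiv (Fin d) ℝ).continuous.comp_continuousOn hνc
  · intro x hx y hy y' hy' hxy hxy'
    have h1 : q y = q y' := hc x hx y hy y' hy' hxy hxy'
    have h2 : ν y = ν y' := by
      simp only [ν, dif_pos hy, dif_pos hy', h1]
    rw [h2]
  · intro x hx y hy hxy heq
    have h1 : ν x = ν y := (EuclideanSpace.equiv (Fin d) ℝ).injective heq
    have h2 := hpos x hx y hy hxy
    have h3 := hpos y hy x hx (by rw [dist_comm]; exact hxy)
    rw [h1] at h2
    have h4 : ⟪ν y, x - y⟫_ℝ + ⟪ν y, y - x⟫_ℝ = 0 := by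
      rw [← inner_add_right]
      simp
    linarith

end Vale.Agent.P052.H342
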